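import Vale.Agent.P157.Ising.Bridge
import Vale.Agent.P157.Casc.FormulaLimit
import Vale.Agent.P157.Casc.Stationary
import Vale.Agent.P157.Ising.InfSup
import Vale.Agent.P157.Sphere.Infimum
import Vale.Agent.P157.Sphere.Main
import Vale.Agent.P157.Sphere.Pressure
import Vale.Agent.P157.Sphere.Limit

/-!
The limiting pressure of the Gaussian perceptron on both configuration spaces, for every bounded
Borel potential and every density, as one variational formula over step paths with any number of
steps, which is also the limit of its finite-level values.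
-/

open MeasureTheory ProbabilityTheory Filter Topology

namespace Vale.Agent.Results.P157.LimitFormulas

open Vale.Agent.P157

theorem result {α : ℝ} (hα : 0 < α) {f : ℝ → ℝ} (hf : Measurable f) {B : ℝ}
    (hB : ∀ x, |f x| ≤ B) :
    (∃ ℓ : ℝ, Tendsto (fun N : ℕ => Ising.expectedPressure f α N) atTop (𝓝 ℓ) ∧
      Ising.infSup α f = (ℓ : EReal) ∧
      Tendsto (fun K => Ising.value K α f) atTop (𝓝 (ℓ : EReal))) ∧
    ∃ ℓ : ℝ, Tendsto (fun N : ℕ => Sphere.expectedPressure f α N) atTop (𝓝 ℓ) ∧
      (⨅ K, Sphere.value K α f) = (ℓ : EReal) ∧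
      Tendsto (fun K => Sphere.value K α f) atTop (𝓝 (ℓ : EReal)) := by
  refine ⟨?_, ?_⟩
  · obtain ⟨ℓ, h1, h2⟩ := Casc.limit_formula_of_stat hα (fun P L _ hε =>
      Casc.stationary_of P _ L (fun _ => Casc.base_small P _ L) hε) hf hB
    simp only [← Ising.value_eq] at h2
    refine ⟨ℓ, ?_, Ising.infSup_eq hα.le hf hB h2, h2⟩
    simpa only [Ising.expectedPressure_eq] using h1
  · obtain ⟨ℓ, h1, h2⟩ := Sphere.limit_formula hα.le hf hB
    refine ⟨ℓ, h1.congr' ?_, Sphere.iInf_value_eq h2, h2⟩
    filter_upwards [eventually_gt_atTop 0] with N hN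
    rw [Sphere.spr_eq_sphere hN hf]
    rfl

end Vale.Agent.Results.P157.LimitFormulas
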