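import Mathlib
import Vale.Agent.P157.Threshold.Gap

/-!
Ising Gaussian perceptron: the annealed phase up to the second-chaos threshold, and a strictly
smaller pressure beyond it.
-/

open MeasureTheory ProbabilityTheory Filter Topology Vale.Agent.P157

namespace Vale.Agent.Results.P157.QuadraticThreshold

/-- With `c = E e^{f(G)}` and `d = E[(G² − 1) e^{f(G)}]`: for even `f` the expected pressure tends
to `α log c` if `α d² ≤ c²` and `α (E e^{2f} − c² − d²/2) ≤ c²/12`; for every bounded `f` it stays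
a constant below `α log c` if `α d² > c²`; so for even `f` with `E e^{2f} − c² ≤ 7d²/12` the limit is
the annealed value exactly when `α d² ≤ c²`. -/
theorem result (f : ℝ → ℝ) (B α : ℝ) (hfm : Measurable f) (hB : ∀ x, |f x| ≤ B) (hα : 0 < α) :
    ((∀ x, f (-x) = f x) →
      α * (∫ x, (x ^ 2 - 1) * Real.exp (f x) ∂gaussianReal 0 1) ^ 2
          ≤ (∫ x, Real.exp (f x) ∂gaussianReal 0 1) ^ 2 →
      α * (∫ x, Real.exp (f x) ^ 2 ∂gaussianReal 0 1 - (∫ x, Real.exp (f x) ∂gaussianReal 0 1) ^ 2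
            - (∫ x, (x ^ 2 - 1) * Real.exp (f x) ∂gaussianReal 0 1) ^ 2 / 2)
          ≤ (∫ x, Real.exp (f x) ∂gaussianReal 0 1) ^ 2 / 12 →
      Tendsto (fun N : ℕ => (∫ G : Fin ⌊α * N⌋₊ → Fin N → ℝ,
        Real.log (((2 : ℝ) ^ N)⁻¹ * ∑ σ : Fin N → Bool, Real.exp (∑ a,
          f ((∑ i, G a i * (if σ i then (1 : ℝ) else -1)) / Real.sqrt N)))
        ∂Measure.pi (fun _ => Measure.pi (fun _ => gaussianReal 0 1))) / N) atTop
        (𝓝 (α * Real.log (∫ x, Real.exp (f x) ∂gaussianReal 0 1)))) ∧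
    ((∫ x, Real.exp (f x) ∂gaussianReal 0 1) ^ 2
        < α * (∫ x, (x ^ 2 - 1) * Real.exp (f x) ∂gaussianReal 0 1) ^ 2 →
      ∃ δ : ℝ, 0 < δ ∧ ∀ᶠ N : ℕ in atTop, (∫ G : Fin ⌊α * N⌋₊ → Fin N → ℝ,
        Real.log (((2 : ℝ) ^ N)⁻¹ * ∑ σ : Fin N → Bool, Real.exp (∑ a,
          f ((∑ i, G a i * (if σ i then (1 : ℝ) else -1)) / Real.sqrt N)))
        ∂Measure.pi (fun _ => Measure.pi (fun _ => gaussianReal 0 1))) / N
        ≤ α * Real.log (∫ x, Real.exp (f x) ∂gaussianReal 0 1) - δ) ∧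
    ((∀ x, f (-x) = f x) →
      ∫ x, Real.exp (f x) ^ 2 ∂gaussianReal 0 1 - (∫ x, Real.exp (f x) ∂gaussianReal 0 1) ^ 2
          ≤ 7 / 12 * (∫ x, (x ^ 2 - 1) * Real.exp (f x) ∂gaussianReal 0 1) ^ 2 →
      (Tendsto (fun N : ℕ => (∫ G : Fin ⌊α * N⌋₊ → Fin N → ℝ,
        Real.log (((2 : ℝ) ^ N)⁻¹ * ∑ σ : Fin N → Bool, Real.exp (∑ a,
          f ((∑ i, G a i * (if σ i then (1 : ℝ) else -1)) / Real.sqrt N)))
        ∂Measure.pi (fun _ => Measure.pi (fun _ => gaussianReal 0 1))) / N) atTop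
        (𝓝 (α * Real.log (∫ x, Real.exp (f x) ∂gaussianReal 0 1)))
      ↔ α * (∫ x, (x ^ 2 - 1) * Real.exp (f x) ∂gaussianReal 0 1) ^ 2
          ≤ (∫ x, Real.exp (f x) ∂gaussianReal 0 1) ^ 2)) := by
  set c := ∫ x, Real.exp (f x) ∂gaussianReal 0 1 with hc
  set d := ∫ x, (x ^ 2 - 1) * Real.exp (f x) ∂gaussianReal 0 1 with hd
  have iw : Integrable (fun x => Real.exp (f x)) (gaussianReal 0 1) :=
    Integrable.of_bound hfm.exp.aestronglyMeasurable (Real.exp B) (ae_of_all _ fun x => by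
      rw [Real.norm_eq_abs, Real.abs_exp]; exact Real.exp_le_exp.2 (abs_le.1 (hB x)).2)
  have hc0 : 0 < c := lt_of_lt_of_le (Real.exp_pos (-B))
    (le_of_eq_of_le (by simp) (integral_mono (integrable_const _) iw fun x =>
      Real.exp_le_exp.2 (abs_le.1 (hB x)).1))
  have hp : ∀ N : ℕ, (∫ G : Fin ⌊α * N⌋₊ → Fin N → ℝ,
      Real.log (((2 : ℝ) ^ N)⁻¹ * ∑ σ : Fin N → Bool, Real.exp (∑ a,
        f ((∑ i, G a i * (if σ i then (1 : ℝ) else -1)) / Real.sqrt N)))
      ∂Measure.pi (fun _ => Measure.pi (fun _ => gaussianReal 0 1))) = press f N ⌊α * N⌋₊ := fun N => by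
    simp only [press, pats, P157.gs, fld, sg]
  simp only [hp]
  have hfl : Tendsto (fun N : ℕ => (⌊α * N⌋₊ : ℝ) / N * Real.log c) atTop (𝓝 (α * Real.log c)) :=
    (((tendsto_nat_floor_mul_div_atTop hα.le).comp tendsto_natCast_atTop_atTop).mul_const _)
  have low : (∀ x, f (-x) = f x) → α * d ^ 2 ≤ c ^ 2 →
      α * (∫ x, Real.exp (f x) ^ 2 ∂gaussianReal 0 1 - c ^ 2 - d ^ 2 / 2) ≤ c ^ 2 / 12 →
      Tendsto (fun N : ℕ => press f N ⌊α * N⌋₊ / N) atTop (𝓝 (α * Real.log c)) := fun he h1 h2 => by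
    refine Metric.tendsto_nhds.2 fun δ hδ => ?_
    have hlo := Threshold.press_lower hfm hB he (c := c) (d := d) rfl hc0 rfl hα h1 h2 (half_pos hδ)
    filter_upwards [hlo, (Metric.tendsto_nhds.1 hfl) (δ / 2) (half_pos hδ), eventually_gt_atTop 0]
      with N a b hN
    have hN' : (0 : ℝ) < N := by exact_mod_cast hN
    have up : press f N ⌊α * N⌋₊ ≤ ⌊α * (N : ℝ)⌋₊ * Real.log c := Threshold.press_le hfm hB hN _
    have g1 : press f N ⌊α * N⌋₊ / N ≤ (⌊α * (N : ℝ)⌋₊ : ℝ) / N * Real.log c := by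
      rw [div_le_iff₀ hN', div_mul_eq_mul_div, div_mul_cancel₀ _ hN'.ne']; exact up
    have g2 : (⌊α * (N : ℝ)⌋₊ : ℝ) / N * Real.log c - δ / 2 ≤ press f N ⌊α * N⌋₊ / N := by
      rw [le_div_iff₀ hN', sub_mul, div_mul_eq_mul_div, div_mul_cancel₀ _ hN'.ne']; linarith
    rw [Real.dist_eq, abs_lt] at b ⊢
    constructor <;> linarith
  have high : c ^ 2 < α * d ^ 2 → ∃ δ : ℝ, 0 < δ ∧
      ∀ᶠ N : ℕ in atTop, press f N ⌊α * N⌋₊ / N ≤ α * Real.log c - δ := fun h => by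
    set l := d / c with hl
    have hd' : ∫ x, Threshold.he2 x * Real.exp (f x) ∂Threshold.g1 = l * c := by
      rw [hl, div_mul_cancel₀ _ hc0.ne']; rfl
    have hl1 : 0 ≤ 1 + l := by
      have h0 : 0 ≤ c + d := by
        have i2 : Integrable (fun x => (x ^ 2 - 1) * Real.exp (f x)) (gaussianReal 0 1) :=
          (Threshold.nice_he2.integrable.norm.const_mul (Real.exp B)).mono'
            ((Threshold.nice_he2.1.mul hfm.exp)).aestronglyMeasurable (ae_of_all _ fun x => by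
              rw [norm_mul, mul_comm, Real.norm_eq_abs, Real.abs_exp]
              exact mul_le_mul (Real.exp_le_exp.2 (abs_le.1 (hB x)).2) le_rfl (norm_nonneg _) (Real.exp_pos _).le)
        rw [hc, hd, ← integral_add iw i2]
        exact integral_nonneg fun x => by
          have : 0 ≤ x ^ 2 * Real.exp (f x) := by positivity
          show 0 ≤ Real.exp (f x) + (x ^ 2 - 1) * Real.exp (f x)
          linarith
      rw [hl, one_add_div hc0.ne']; positivity
    have hsup : 1 < α * l ^ 2 := by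
      rw [hl, div_pow, ← mul_div_assoc, one_lt_div (by positivity)]; exact h
    obtain ⟨κ, hκ, hev⟩ := Threshold.press_gap hfm hB (c := c) (lam := l) rfl hc0 hd' hα hl1 hsup
    refine ⟨κ / 2, half_pos hκ, ?_⟩
    filter_upwards [hev, (Metric.tendsto_nhds.1 hfl) (κ / 2) (half_pos hκ), eventually_gt_atTop 0]
      with N a b hN
    have hN' : (0 : ℝ) < N := by exact_mod_cast hN
    have g1 : press f N ⌊α * N⌋₊ / N ≤ (⌊α * (N : ℝ)⌋₊ : ℝ) / N * Real.log c - κ := by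
      rw [div_le_iff₀ hN', sub_mul, div_mul_eq_mul_div, div_mul_cancel₀ _ hN'.ne']; exact a
    rw [Real.dist_eq, abs_lt] at b
    linarith
  refine ⟨low, high, fun he hdom => ⟨fun ht => ?_, fun h => low he h ?_⟩⟩
  · by_contra h
    push Not at h
    obtain ⟨δ, hδ, hev⟩ := high h
    have := le_of_tendsto ht hev
    linarith
  · have := mul_le_mul_of_nonneg_left hdom hα.le
    linarith

end Vale.Agent.Results.P157.QuadraticThreshold
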